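import Vale.Agent.P092.H328.TopA
import Vale.Agent.P092.PA.FacInst
import Vale.Agent.P092.H264.S2Sl
import Vale.Agent.P092.H515.RkFin
import Vale.Agent.P092.H714.Fin2
import Vale.Agent.P092.H387.StA

/-!
P092 (helper328), block A-TOP: isomorphisms between the group von Neumann algebras of irreducible ICC
lattices in products of two groups `SL` over local fields are canonical, given the abstract blocks.
-/

set_option linter.all false

open MeasureTheory Filter Topology ContinuousLinearMap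
open scoped InnerProductSpace

namespace Vale.Agent.P092.H328

open Vale.Agent.P092.PA (Pic NeS Can Blocks FacS)
open Vale.Agent.P092.H259 (Cf PQ pq p₁ p₂ GrpOut grpOut cf_SL)
open Vale.Agent.P092.H264 (SL S2Asm s2_sl)
open Vale.Agent.P092.H933 (LocK)

section rank

variable {E G : Type} [Group E] [TopologicalSpace E] [Group G] [TopologicalSpace G]
    [IsTopologicalGroup G] [T2Space G] {m r : ℕ}

/-- The rank inequality, for a picture. -/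
theorem rank_le (hE : H515.Src E m) (hG : H515.Tgt G r) {Γ : Subgroup E} {Λ : Subgroup G}
    (hΓ : H515.IsLattice Γ) (hΛ : DiscreteTopology Λ)
    {K : Type} [NormedAddCommGroup K] [InnerProductSpace ℂ K] [CompleteSpace K]
    (D : Pic Γ Λ K) : m ≤ r := by
  by_contra hlt
  push Not at hlt
  exact H515.no_arep hE hG hlt hΛ hΓ (MonoidHom.id Λ) (MonoidHom.id Γ) Function.injective_id
    (by rw [MonoidHom.range_eq_top.2 Function.surjective_id]; infer_instance)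
    Function.injective_id _ _ _ (H264.arep (H714.Fin.swp D).frm)

end rank

section sl

variable {k₁ k₂ l₁ l₂ : Type} [NontriviallyNormedField k₁] [ProperSpace k₁]
  [NontriviallyNormedField k₂] [ProperSpace k₂] [NontriviallyNormedField l₁] [ProperSpace l₁]
  [NontriviallyNormedField l₂] [ProperSpace l₂]
  {m₁ m₂ n₁ n₂ : ℕ}
  {K : Type} [NormedAddCommGroup K] [InnerProductSpace ℂ K] [CompleteSpace K]

/-- The theorem for a picture of two lattices. -/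
theorem can_sl (B : Blocks FacS) (hS : S2Asm)
    (hk₁ : LocK k₁) (hk₂ : LocK k₂) (hl₁ : LocK l₁) (hl₂ : LocK l₂)
    (hm₁ : 1 ≤ m₁) (hm₂ : 1 ≤ m₂) (hn₁ : 1 ≤ n₁) (hn₂ : 1 ≤ n₂)
    (Γ : Subgroup (SL m₁ k₁ × SL m₂ k₂)) (Λ : Subgroup (SL n₁ l₁ × SL n₂ l₂))
    (hΓ : H515.St.IsLattice Γ) (hΛ : H515.St.IsLattice Λ) (iΓ : PA.Icc Γ) (iΛ : PA.Icc Λ)
    (dΓ₁ : DenseRange fun γ : Γ => (γ : SL m₁ k₁ × SL m₂ k₂).1)
    (dΓ₂ : DenseRange fun γ : Γ => (γ : SL m₁ k₁ × SL m₂ k₂).2)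
    (dΛ₁ : DenseRange fun γ : Λ => (γ : SL n₁ l₁ × SL n₂ l₂).1)
    (dΛ₂ : DenseRange fun γ : Λ => (γ : SL n₁ l₁ × SL n₂ l₂).2)
    (D : Pic Γ Λ K) : Can D := by
  have fk₁ : FacS (PQ (SL m₁ k₁)) := PA.facS_psl hk₁ (by omega)
  have fk₂ : FacS (PQ (SL m₂ k₂)) := PA.facS_psl hk₂ (by omega)
  have fl₁ : FacS (PQ (SL n₁ l₁)) := PA.facS_psl hl₁ (by omega)
  have fl₂ : FacS (PQ (SL n₂ l₂)) := PA.facS_psl hl₂ (by omega)
  have hr : m₁ + m₂ ≤ n₁ + n₂ :=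
    rank_le ((H515.src_sl k₁ m₁).prod (H515.src_sl k₂ m₂))
      ((H933.tgt_sl_loc hl₁ n₁).prod (H933.tgt_sl_loc hl₂ n₂)) ⟨hΓ.disc, hΓ.covol⟩ hΛ.disc D
  borelize (PQ (SL m₁ k₁)) (PQ (SL m₂ k₂))
  haveI := fk₁.isMulRightInvariant (Measure.haar : Measure (PQ (SL m₁ k₁)))
  haveI := fk₂.isMulRightInvariant (Measure.haar : Measure (PQ (SL m₂ k₂)))
  obtain ⟨s₁, s₂⟩ := s2_sl hS hk₁ hk₂ hl₁ hl₂ hn₁ hn₂ hr hΓ.disc ⟨hΛ.disc, hΛ.covol⟩ D
    (Measure.haar : Measure (PQ (SL m₁ k₁))) (Measure.haar : Measure (PQ (SL m₂ k₂)))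
  have nΓ : ∃ v : Γ, v ≠ 1 := by
    haveI := H259.nontrivial_SL (N := m₁ + 1) (by omega) k₁
    exact H259.exists_ne_one (q := (MonoidHom.fst _ _).comp Γ.subtype) dΓ₁
  have nΛ : ∃ v : Λ, v ≠ 1 := by
    haveI := H259.nontrivial_SL (N := n₁ + 1) (by omega) l₁
    exact H259.exists_ne_one (q := (MonoidHom.fst _ _).comp Λ.subtype) dΛ₁
  exact can_abs B (cf_SL _ _) (cf_SL _ _) (cf_SL _ _) (cf_SL _ _) fk₁ fk₂ fl₁ fl₂ Γ Λ hΓ hΛ iΓ iΛ
    nΓ nΛ dΓ₁ dΓ₂ dΛ₁ dΛ₂ D _ _ s₁ s₂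

/-- The theorem for a picture of two abstract groups embedded as irreducible lattices. -/
theorem can_irr (B : Blocks FacS) (hS : S2Asm)
    (hk₁ : LocK k₁) (hk₂ : LocK k₂) (hl₁ : LocK l₁) (hl₂ : LocK l₂)
    (hm₁ : 1 ≤ m₁) (hm₂ : 1 ≤ m₂) (hn₁ : 1 ≤ n₁) (hn₂ : 1 ≤ n₂)
    {Γ Λ : Type} [Group Γ] [Group Λ]
    (i : Γ →* SL m₁ k₁ × SL m₂ k₂) (j : Λ →* SL n₁ l₁ × SL n₂ l₂)
    (hi : SR.St.IrrLattice i) (hj : SR.St.IrrLattice j) (iΓ : PA.Icc Γ) (iΛ : PA.Icc Λ)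
    (D : Pic Γ Λ K) : Can D := by
  have e : i.range ≃* Γ := (MonoidHom.ofInjective hi.inj).symm
  have f : j.range ≃* Λ := (MonoidHom.ofInjective hj.inj).symm
  have hr : ∀ {X Y : Type} [Group X] [Group Y] (φ : X →* Y),
      Set.range (fun γ : φ.range => (γ : Y)) = Set.range φ := fun φ => by
    rw [Subtype.range_coe_subtype]
    rfl
  have key : ∀ {X Y Z : Type} [Group X] [Group Y] [TopologicalSpace Z] (φ : X →* Y) (π : Y → Z),
      DenseRange (fun x => π (φ x)) → DenseRange fun γ : φ.range => π γ := by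
    intro X Y Z _ _ _ φ π h
    have h1 : Set.range (fun x => π (φ x)) ⊆ Set.range fun γ : φ.range => π γ := by
      rintro _ ⟨x, rfl⟩
      exact ⟨⟨φ x, x, rfl⟩, rfl⟩
    exact h.mono h1
  exact can_comap D e f (can_sl B hS hk₁ hk₂ hl₁ hl₂ hm₁ hm₂ hn₁ hn₂ i.range j.range hi.lat hj.lat
    (icc_equiv e iΓ) (icc_equiv f iΛ) (key i Prod.fst hi.dense₁) (key i Prod.snd hi.dense₂)
    (key j Prod.fst hj.dense₁) (key j Prod.snd hj.dense₂) _)

end sl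

/-- The first conjunct of the final statement, given the abstract blocks. -/
theorem main1 (B : Blocks FacS) (hS : S2Asm) (Γ Λ : Type) [Group Γ] [Group Λ]
    (hΓ : PA.St.LocalProductLattice Γ) (hΛ : PA.St.LocalProductLattice Λ)
    (θ : H160.St.StarIso Γ Λ) : H160.St.Canonical θ := by
  obtain ⟨iΓ, k₁, k₂, _, _, m₁, m₂, i, _, _, hk₁, hk₂, hm₁, hm₂, hi⟩ := hΓ
  obtain ⟨iΛ, l₁, l₂, _, _, n₁, n₂, j, _, _, hl₁, hl₂, hn₁, hn₂, hj⟩ := hΛ
  obtain ⟨m₁, rfl⟩ := Nat.exists_eq_add_of_le' (show 1 ≤ m₁ by omega)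
  obtain ⟨m₂, rfl⟩ := Nat.exists_eq_add_of_le' (show 1 ≤ m₂ by omega)
  obtain ⟨n₁, rfl⟩ := Nat.exists_eq_add_of_le' (show 1 ≤ n₁ by omega)
  obtain ⟨n₂, rfl⟩ := Nat.exists_eq_add_of_le' (show 1 ≤ n₂ by omega)
  exact H714.Fin.canonical_of_pics iΓ (fun {K} _ _ _ D => can_irr B hS (H515.locK hk₁)
    (H515.locK hk₂) (H515.locK hl₁) (H515.locK hl₂) (by omega) (by omega) (by omega) (by omega)
    i j hi hj iΓ iΛ D) θ

end Vale.Agent.P092.H328
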