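import Vale.Agent.P092.PA.Blocks
import Vale.Agent.P092.PA.Fac
import Vale.Agent.P092.H259.SLF
import Vale.Agent.P092.H328.Psl

/-!
P092 (helper328), block A-TOP, first part: from the conclusion of (S2) for lattices in products of
two groups to the conclusion `Can`, given the abstract blocks.
-/

set_option linter.all false

open MeasureTheory Filter Topology ContinuousLinearMap
open scoped InnerProductSpace

namespace Vale.Agent.P092.H328

open Vale.Agent.P092.PA (Pic NeS Can Blocks FacS)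
open Vale.Agent.P092.H259 (Cf PQ pq p₁ p₂ GrpOut grpOut)
open Vale.Agent.P092.H515.St (IsLattice)

/-- Passage to the quotient of the source group by a finite normal subgroup. -/
theorem nes_quot {Γ Λ K G H : Type} [Group Γ] [Countable Γ] [Group Λ] [NormedAddCommGroup K]
    [InnerProductSpace ℂ K] [CompleteSpace K] [Group G] [TopologicalSpace G]
    [IsTopologicalGroup G] [SecondCountableTopology G] [MeasurableSpace G] [BorelSpace G]
    [Group H] [TopologicalSpace H] [IsTopologicalGroup H] (D : Pic Γ Λ K) {p : Γ →* G}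
    {q : Λ →* H} {μ : Measure G} [μ.IsMulLeftInvariant] (hd : DenseRange q) (Z : Subgroup H)
    [Z.Normal] [Finite Z] (h : NeS D p q μ) : NeS D p ((QuotientGroup.mk' Z).comp q) μ := by
  obtain ⟨b, hb, h0⟩ := h
  exact exists_smo_quot D.frm hd Z hb h0

section transport

open Vale.Agent.P092.H160 (RegRep)

theorem regRep_comp {G G' K : Type} [Group G] [Group G'] [NormedAddCommGroup K]
    [InnerProductSpace ℂ K] [CompleteSpace K] {π : G →* (K →L[ℂ] K)} {ξ : K} (h : RegRep π ξ)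
    (e : G' ≃* G) : RegRep (π.comp e.toMonoidHom) ξ where
  adj g := by
    change adjoint (π (e g)) = π (e g⁻¹)
    rw [map_inv e g]
    exact h.adj (e g)
  norm_one := h.norm_one
  inner_zero g hg := h.inner_zero (e g) fun h1 => hg (e.map_eq_one_iff.1 h1)
  total v hv := h.total v fun g => by
    have h1 := hv (e.symm g)
    have h2 : (π.comp e.toMonoidHom) (e.symm g) = π g := by
      change π (e (e.symm g)) = π g
      rw [e.apply_symm_apply]
    rw [h2] at h1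
    exact h1

variable {Γ Λ Γ' Λ' K : Type} [Group Γ] [Group Λ] [Group Γ'] [Group Λ'] [NormedAddCommGroup K]
  [InnerProductSpace ℂ K] [CompleteSpace K]

/-- Transport of a picture. -/
def comapPic (D : Pic Γ Λ K) (e : Γ' ≃* Γ) (f : Λ' ≃* Λ) : Pic Γ' Λ' K where
  ρ := D.ρ.comp e.toMonoidHom
  V := D.V.comp f.toMonoidHom
  Ω := D.Ω
  hρ := regRep_comp D.hρ e
  hV := regRep_comp D.hV f
  comm := fun g v => D.comm _ _

theorem can_comap (D : Pic Γ Λ K) (e : Γ' ≃* Γ) (f : Λ' ≃* Λ) (h : Can (comapPic D e f)) :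
    Can D := by
  obtain ⟨ζ, δ, χ, h1, h2, h3, h4, h5⟩ := h
  refine ⟨ζ, fun g => f (δ (e.symm g)), fun g => χ (e.symm g), h1, fun v hv => ?_, ?_,
    fun g => h4 _, fun g => ?_⟩
  · have h6 := h2 (f.symm v) fun h => hv (f.symm.map_eq_one_iff.1 h)
    have h7 : (comapPic D e f).V (f.symm v) = D.V v := by
      change D.V (f (f.symm v)) = D.V v
      rw [f.apply_symm_apply]
    rw [h7] at h6
    exact h6
  · exact f.bijective.comp (h3.comp e.symm.bijective)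
  · have h6 := h5 (e.symm g)
    have h7 : (comapPic D e f).ρ (e.symm g) = D.ρ g := by
      change D.ρ (e (e.symm g)) = D.ρ g
      rw [e.apply_symm_apply]
    rw [h7] at h6
    exact h6

theorem icc_equiv (e : Γ' ≃* Γ) (h : PA.Icc Γ) : PA.Icc Γ' := by
  intro g hg hfin
  refine h (e g) (fun h1 => hg (e.map_eq_one_iff.1 h1)) ((hfin.image e).subset ?_)
  rintro y ⟨k, rfl⟩
  exact ⟨e.symm k * g * (e.symm k)⁻¹, ⟨_, rfl⟩, by simp⟩

end transport

section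

variable {E₁ E₂ F₁ F₂ : Type}
  [Group E₁] [TopologicalSpace E₁] [IsTopologicalGroup E₁] [LocallyCompactSpace E₁]
  [SecondCountableTopology E₁] [T2Space E₁]
  [Group E₂] [TopologicalSpace E₂] [IsTopologicalGroup E₂] [LocallyCompactSpace E₂]
  [SecondCountableTopology E₂] [T2Space E₂]
  [Group F₁] [TopologicalSpace F₁] [IsTopologicalGroup F₁] [LocallyCompactSpace F₁]
  [SecondCountableTopology F₁] [T2Space F₁]
  [Group F₂] [TopologicalSpace F₂] [IsTopologicalGroup F₂] [LocallyCompactSpace F₂]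
  [SecondCountableTopology F₂] [T2Space F₂]

/-- From the conclusion of (S2) to the conclusion of the theorem. -/
theorem can_abs (B : Blocks FacS)
    (hE₁ : Cf E₁) (hE₂ : Cf E₂) (hF₁ : Cf F₁) (hF₂ : Cf F₂)
    (fE₁ : FacS (PQ E₁)) (fE₂ : FacS (PQ E₂)) (fF₁ : FacS (PQ F₁)) (fF₂ : FacS (PQ F₂))
    [MeasurableSpace (PQ E₁)] [BorelSpace (PQ E₁)] [MeasurableSpace (PQ E₂)] [BorelSpace (PQ E₂)]
    (Γ : Subgroup (E₁ × E₂)) (Λ : Subgroup (F₁ × F₂)) (hΓ : IsLattice Γ) (hΛ : IsLattice Λ)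
    (iΓ : PA.Icc Γ) (iΛ : PA.Icc Λ) (nΓ : ∃ v : Γ, v ≠ 1) (nΛ : ∃ v : Λ, v ≠ 1)
    (dΓ₁ : DenseRange fun γ : Γ => (γ : E₁ × E₂).1) (dΓ₂ : DenseRange fun γ : Γ => (γ : E₁ × E₂).2)
    (dΛ₁ : DenseRange fun γ : Λ => (γ : F₁ × F₂).1) (dΛ₂ : DenseRange fun γ : Λ => (γ : F₁ × F₂).2)
    {K : Type} [NormedAddCommGroup K] [InnerProductSpace ℂ K] [CompleteSpace K] (D : Pic Γ Λ K)
    (μ₁ : Measure (PQ E₁)) [μ₁.IsHaarMeasure] (μ₂ : Measure (PQ E₂)) [μ₂.IsHaarMeasure]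
    (s₁ : NeS D (p₁ Γ) ((MonoidHom.fst F₁ F₂).comp Λ.subtype) μ₁ ∨
      NeS D (p₂ Γ) ((MonoidHom.fst F₁ F₂).comp Λ.subtype) μ₂)
    (s₂ : NeS D (p₁ Γ) ((MonoidHom.snd F₁ F₂).comp Λ.subtype) μ₁ ∨
      NeS D (p₂ Γ) ((MonoidHom.snd F₁ F₂).comp Λ.subtype) μ₂) : Can D := by
  haveI := fF₁.t2
  borelize (PQ F₁) (PQ F₂)
  haveI := fE₁.isMulRightInvariant μ₁
  haveI := fE₂.isMulRightInvariant μ₂
  haveI := hF₁.fin
  haveI := hF₂.fin
  have gΓ := grpOut hE₁ hE₂ Γ hΓ iΓ nΓ dΓ₁ dΓ₂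
  have gΛ := grpOut hF₁ hF₂ Λ hΛ iΛ nΛ dΛ₁ dΛ₂
  haveI := gΓ.cnt
  haveI := gΛ.cnt
  obtain ⟨m, hm⟩ := gΛ.lat
  have d1 : DenseRange ((MonoidHom.fst F₁ F₂).comp Λ.subtype) := dΛ₁
  have d2 : DenseRange ((MonoidHom.snd F₁ F₂).comp Λ.subtype) := dΛ₂
  exact B.can D μ₁ μ₂ m gΓ.pl₁ gΓ.pl₂ gΛ.pl₁ gΛ.pl₂ fE₁ fE₂ fF₁ fF₂ gΓ.fin hm iΓ iΛ
    (s₁.imp (nes_quot D d1 _) (nes_quot D d1 _)) (s₂.imp (nes_quot D d2 _) (nes_quot D d2 _))

end

end Vale.Agent.P092.H328
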